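import Vale.Agent.P352R.Lg.Pub
import Vale.Agent.P352W.Net.Vn
import Vale.Agent.P352W.Net.Hull
import Vale.Agent.P352X.R.GRP.A

/-!
# P352R, block Lg: the graded net generated by one algebra (helper85)
-/

set_option autoImplicit false
set_option linter.all false

noncomputable section

namespace Vale.Agent.P352R.Lg

open P352 GF P352R.P P352R.G P352W.Net
open UniformSpace (Completion)

/-- twisted commutation is symmetric -/
theorem tw_symm {R : Type*} [Ring R] [Algebra ℂ R] {Γ a b : R} (g2 : Γ * Γ = 1)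
    (h1 : (a + Γ * a * Γ) * b = b * (a + Γ * a * Γ))
    (h2 : (a - Γ * a * Γ) * Γ * b = b * ((a - Γ * a * Γ) * Γ)) :
    (b + Γ * b * Γ) * a = a * (b + Γ * b * Γ) ∧
      (b - Γ * b * Γ) * Γ * a = a * ((b - Γ * b * Γ) * Γ) := by
  have gg : ∀ x, Γ * (Γ * x) = x := fun x => by rw [← mul_assoc, g2, one_mul]
  have he : Γ * (a + Γ * a * Γ) = (a + Γ * a * Γ) * Γ := by
    simp only [mul_add, add_mul, mul_assoc, gg, g2, mul_one]; abel
  have hk : Γ * ((a - Γ * a * Γ) * Γ) = -((a - Γ * a * Γ) * Γ * Γ) := by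
    simp only [mul_sub, sub_mul, mul_assoc, gg, g2, mul_one]; abel
  have ha : a = (2⁻¹ : ℂ) • ((a + Γ * a * Γ) + (a - Γ * a * Γ) * Γ * Γ) := by
    rw [mul_assoc _ Γ Γ, g2, mul_one, add_add_sub_cancel, ← two_smul ℂ a, smul_smul,
      inv_mul_cancel₀ two_ne_zero, one_smul]
  generalize a + Γ * a * Γ = e at *
  generalize (a - Γ * a * Γ) * Γ = k at *
  have he' : ∀ x, Γ * (e * x) = e * (Γ * x) := fun x => by rw [← mul_assoc, he, mul_assoc]
  have hk' : ∀ x, Γ * (k * x) = -(k * (Γ * x)) := fun x => by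
    rw [← mul_assoc, hk, neg_mul, mul_assoc]
  have b1 : ∀ x, b * (e * x) = e * (b * x) := fun x => by rw [← mul_assoc, ← h1, mul_assoc]
  have b2 : ∀ x, b * (k * x) = k * (b * x) := fun x => by rw [← mul_assoc, ← h2, mul_assoc]
  rw [ha]
  constructor <;>
  · rw [mul_smul_comm, smul_mul_assoc]
    congr 1
    simp only [mul_add, add_mul, mul_sub, sub_mul, mul_assoc, gg, g2, he, he', hk, hk', ← h1, ← h2,
      b1, b2, mul_neg, neg_mul, neg_neg, mul_one]
    abel

variable {D : Type*} [NormedAddCommGroup D] [InnerProductSpace ℂ D] {Q : Theory D} {G : D → D}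
  {A : (V → V) → D → D} {Γ : Completion D →L[ℂ] Completion D} {O S : Set V}
  {M : VonNeumannAlgebra (Completion D)} {s s' : ℝ} {L L' : Ix → V}

/-- the similitudes as bounded operators -/
def W (Q : Theory D) (hs : 0 < s) (hL : IsLor L) (y : V) : Completion D →L[ℂ] Completion D :=
  (BW.ueC Q hs hL y).toContinuousLinearMap

theorem W_apply (hs : 0 < s) (hL : IsLor L) (y : V) (z : Completion D) :
    W Q hs hL y z = Ue Q s L y z := rfl

theorem W_coe (hs : 0 < s) (hL : IsLor L) (y : V) (v : D) :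
    W Q hs hL y v = (Q.U s L y v : D) := BW.ue_coe hs hL y v

theorem extC {X Y : Completion D →L[ℂ] Completion D} (h : ∀ v : D, X v = Y v) : X = Y :=
  ContinuousLinearMap.ext fun z =>
    Completion.induction_on z (isClosed_eq X.continuous Y.continuous) h

theorem star_W (hs : 0 < s) (hL : IsLor L) (y : V) : star (W Q hs hL y) * W Q hs hL y = 1 :=
  ContinuousLinearMap.ext fun z => ext_inner_left ℂ fun u => by
    rw [ContinuousLinearMap.mul_apply, ContinuousLinearMap.star_eq_adjoint,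
      ContinuousLinearMap.adjoint_inner_right]
    exact (BW.ueC Q hs hL y).inner_map_map u z

theorem sur (g : Gr Q G) (hs : 0 < s) (hL : IsLor L) (y : V) : Function.Surjective (Q.U s L y) := by
  have e : sim s L y (-(sim s⁻¹ (H246.linv L) 0 y)) = 0 := by
    have h1 := BW.ue_sim hs hL y 0
    have h2 : sim s⁻¹ (H246.linv L) (-(sim s⁻¹ (H246.linv L) 0 y)) 0 =
        -(sim s⁻¹ (H246.linv L) 0 y) := by
      funext n; simp [sim]
    rwa [h2] at h1
  intro v
  rcases g.mul s L y s⁻¹ (H246.linv L) (-(sim s⁻¹ (H246.linv L) 0 y)) hs (inv_pos.2 hs) hL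
    (H246.isLor_linv hL) with h | ⟨-, -, h⟩
  · refine ⟨_, (h v).trans ?_⟩
    rw [H755.linv_id hL, mul_inv_cancel₀ hs.ne', e, H755.Uone]
  · refine ⟨_, (h (G v)).trans ?_⟩
    rw [H755.linv_id hL, mul_inv_cancel₀ hs.ne', e, H755.Uone, g.inv]

theorem W_star (g : Gr Q G) (hs : 0 < s) (hL : IsLor L) (y : V) :
    W Q hs hL y * star (W Q hs hL y) = 1 := extC fun v => by
  obtain ⟨u, rfl⟩ := sur g hs hL y v
  rw [← W_coe hs hL, ← ContinuousLinearMap.mul_apply, mul_assoc, star_W, mul_one]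
  rfl

theorem canc (g : Gr Q G) (hs : 0 < s) (hL : IsLor L) (y : V)
    {Y Y' : Completion D →L[ℂ] Completion D} (h : Y * W Q hs hL y = Y' * W Q hs hL y) : Y = Y' := by
  rw [← mul_one Y, ← mul_one Y', ← W_star g hs hL y, ← mul_assoc, h, mul_assoc]

theorem mem_trf {Y : Completion D →L[ℂ] Completion D} : Y ∈ Trf Q O M S ↔
    ∃ s L y, ∃ X ∈ M, ∃ (hs : 0 < s) (hL : IsLor L), sim s L y '' O ⊆ S ∧
      Y * W Q hs hL y = W Q hs hL y * X :=
  ⟨fun ⟨s, L, y, X, m, hs, hL, a, b⟩ => ⟨s, L, y, X, m, hs, hL, a, ContinuousLinearMap.ext b⟩,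
    fun ⟨s, L, y, X, m, hs, hL, a, b⟩ => ⟨s, L, y, X, m, hs, hL, a, DFunLike.congr_fun b⟩⟩

theorem trf_star (g : Gr Q G) : ∀ Y ∈ Trf Q O M S, star Y ∈ Trf Q O M S := fun Y hY => by
  obtain ⟨s, L, y, X, m, hs, hL, a, b⟩ := mem_trf.1 hY
  refine mem_trf.2 ⟨s, L, y, star X, star_mem m, hs, hL, a, ?_⟩
  have e := congrArg star b
  rw [star_mul, star_mul] at e
  calc star Y * W Q hs hL y
      = W Q hs hL y * (star (W Q hs hL y) * star Y) * W Q hs hL y := by
        rw [← mul_assoc, W_star g, one_mul]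
    _ = _ := by rw [e, mul_assoc, mul_assoc, star_W, mul_one]

section

variable (g : Gr Q G) (ex : ∀ v : D, Γ v = (G v : D))
include g ex

theorem g2 : Γ * Γ = 1 := extC fun v => by
  rw [ContinuousLinearMap.mul_apply, ex, ex, g.inv]; rfl

theorem gW (hs : 0 < s) (hL : IsLor L) (y : V) : Γ * W Q hs hL y = W Q hs hL y * Γ :=
  extC fun v => by
    rw [ContinuousLinearMap.mul_apply, ContinuousLinearMap.mul_apply, W_coe, ex, ex, W_coe,
      g.GU s L y v hs hL]

theorem WW (hs : 0 < s) (hL : IsLor L) (hs' : 0 < s') (hL' : IsLor L') (y y' : V) :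
    W Q hs hL y * W Q hs' hL' y' = W Q (mul_pos hs hs') (BW.ue_lor hL hL') (sim s L y y') ∨
    W Q hs hL y * W Q hs' hL' y' = Γ * W Q (mul_pos hs hs') (BW.ue_lor hL hL') (sim s L y y') :=
  (g.mul s L y s' L' y' hs hs' hL hL').imp
    (fun h => extC fun v => by rw [ContinuousLinearMap.mul_apply, W_coe, W_coe, W_coe, h])
    fun h => extC fun v => by
      rw [ContinuousLinearMap.mul_apply, ContinuousLinearMap.mul_apply, W_coe, W_coe, W_coe, ex,
        h.2.2]

variable (gm : ∀ X ∈ M, Γ * X * Γ ∈ M)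
include gm

theorem trf_gam : ∀ Y ∈ Trf Q O M S, Γ * Y * Γ ∈ Trf Q O M S := fun Y hY => by
  obtain ⟨s, L, y, X, m, hs, hL, a, b⟩ := mem_trf.1 hY
  refine mem_trf.2 ⟨s, L, y, _, gm X m, hs, hL, a, ?_⟩
  rw [mul_assoc, gW g ex, mul_assoc, ← mul_assoc Y, b, ← mul_assoc, ← mul_assoc, gW g ex]
  simp only [mul_assoc]

theorem trf_cov (hs : 0 < s) (hL : IsLor L) (y : V) : ∀ Y ∈ Trf Q O M S,
    ∃ Y' ∈ Trf Q O M (sim s L y '' S), W Q hs hL y * Y = Y' * W Q hs hL y := fun Y hY => by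
  obtain ⟨s', L', y', X, m, hs', hL', a, b⟩ := mem_trf.1 hY
  have sub : sim (s * s') (fun m => sim 1 L 0 (L' m)) (sim s L y y') '' O ⊆ sim s L y '' S := by
    rintro _ ⟨x, hx, rfl⟩
    exact ⟨_, a ⟨x, hx, rfl⟩, (P352X.Grp.sim_mul s s' L L' y y' x).symm⟩
  have k : W Q hs hL y * Y * star (W Q hs hL y) * (W Q hs hL y * W Q hs' hL' y') =
      W Q hs hL y * W Q hs' hL' y' * X := by
    rw [mul_assoc, ← mul_assoc (star _), star_W, one_mul, mul_assoc, b, mul_assoc]
  refine ⟨W Q hs hL y * Y * star (W Q hs hL y), ?_, by rw [mul_assoc, star_W, mul_one]⟩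
  rcases WW g ex hs hL hs' hL' y y' with h | h
  · exact mem_trf.2 ⟨_, _, _, X, m, _, _, sub, h ▸ k⟩
  · refine mem_trf.2 ⟨_, _, _, _, gm X m, mul_pos hs hs', BW.ue_lor hL hL', sub, ?_⟩
    rw [h, gW g ex] at k
    have := congrArg (· * Γ) k
    simp only [mul_assoc, g2 g ex, mul_one] at this ⊢
    exact this

theorem vn_gam : ∀ X ∈ vn (Trf Q O M S), Γ * X * Γ ∈ vn (Trf Q O M S) := fun X hX => by
  obtain ⟨Y, m, e⟩ := vn_cov (trf_star g) (trf_star g) Γ Γ (g2 g ex) (g2 g ex)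
    (fun Y hY => ⟨_, trf_gam g ex gm Y hY, by rw [mul_assoc, g2 g ex, mul_one]⟩) X hX
  rwa [← e, mul_assoc, g2 g ex, mul_one]

end

theorem mono (g : Gr Q G) : ∀ S S', S ⊆ S' → ∀ X ∈ vn (Trf Q O M S), X ∈ vn (Trf Q O M S') :=
  fun _ _ h => vn_mono (trf_star g) (trf_star g)
    fun _ ⟨s, L, y, X, m, hs, hL, a, b⟩ => ⟨s, L, y, X, m, hs, hL, a.trans h, b⟩

/-- the commutant of the transforms lies in the commutant of the hull -/
theorem sub_cm (g : Gr Q G) (hS : IsOpen S) {Y : Completion D →L[ℂ] Completion D}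
    (h : ∀ X ∈ Trf Q O M S, X * Y = Y * X) :
    Y ∈ (hl (fun S => vn (Trf Q O M S)) S).commutant :=
  VonNeumannAlgebra.mem_commutant_iff.2 fun X hX =>
    (mem_vn.1 (mem_hl.1 hX S hS subset_rfl) Y ((mem_cmt (trf_star g)).2 h)).symm

/-- **the generated net** -/
theorem lng (h : Lg1 Q G A Γ O M)
    (fld : ∀ S B f, IsOpen S → Q.fld B → In S f → Aff (vn (Trf Q O M S)) (B f)) :
    LNg Q G A Γ (hl fun S => vn (Trf Q O M S)) where
  toGr := h.toGr
  vac := h.vac
  add := h.add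
  der := h.der
  ext := h.ext
  fld := fun S B f hB hf => aff_hl (mono h.toGr) fun U hU hO =>
    fld U B f hU hB ⟨hf.1, hf.2.1, hf.2.2.trans hO⟩
  mono := fun S S' k X hX => mem_hl.2 fun U hU hO => mem_hl.1 hX U hU (k.trans hO)
  cov := by
    intro s L y S X hX hs hL
    have cv : ∀ S, ∀ X ∈ vn (Trf Q O M S), ∃ Y ∈ vn (Trf Q O M (sim s L y '' S)),
        Y * W Q hs hL y = W Q hs hL y * X := fun S =>
      vn_cov (trf_star h.toGr) (trf_star h.toGr) _ _ (W_star h.toGr hs hL y) (star_W hs hL y)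
        (trf_cov h.toGr h.ext h.gam hs hL y)
    obtain ⟨Y, -, hY⟩ := cv Set.univ X (mem_hl.1 hX _ isOpen_univ (Set.subset_univ _))
    refine ⟨Y, mem_hl.2 fun U hU hO => ?_, DFunLike.congr_fun hY⟩
    obtain ⟨Y', h1, h2⟩ := cv (sim s L y ⁻¹' U) X
      (mem_hl.1 hX _ (hU.preimage (sim_cont s L y)) (Set.image_subset_iff.1 hO))
    rw [canc h.toGr hs hL y (hY.trans h2.symm)]
    exact mono h.toGr _ _ (Set.image_preimage_subset _ _) Y' h1
  gam := fun S X hX => mem_hl.2 fun U hU hO =>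
    vn_gam h.toGr h.ext h.gam X (mem_hl.1 hX U hU hO)
  loc := by
    intro a b X ha hb hab hX
    have h1 := mem_hl.1 hX _ (wdg_open b a 0) subset_rfl
    have g := g2 h.toGr h.ext
    have k : ∀ Y ∈ Trf Q O M (Wdg a b 0), (X + Γ * X * Γ) * Y = Y * (X + Γ * X * Γ) ∧
        (X - Γ * X * Γ) * Γ * Y = Y * ((X - Γ * X * Γ) * Γ) := fun Y hY =>
      have t := fun Z hZ => tw_symm g (h.loc a b ha hb hab Z hZ Y hY).1
        (h.loc a b ha hb hab Z hZ Y hY).2
      tw_symm g (mem_vn.1 h1 _ ((mem_cmt (trf_star h.toGr)).2 fun Z hZ => (t Z hZ).1.symm))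
        (mem_vn.1 h1 _ ((mem_cmt (trf_star h.toGr)).2 fun Z hZ => (t Z hZ).2.symm))
    exact ⟨sub_cm h.toGr (wdg_open a b 0) fun Y hY => (k Y hY).1.symm,
      sub_cm h.toGr (wdg_open a b 0) fun Y hY => (k Y hY).2.symm⟩

variable {D' : Type*} [NormedAddCommGroup D'] [InnerProductSpace ℂ D']

theorem aft (g : Gr Q G) {Q' : Theory D'} {i : D' → Completion D}
    (h : AfW (hl fun S => vn (Trf Q O M S)) Q' i) : AfT (Trf Q O M) Q' i :=
  fun a b y B B' f ha hb hab hB hA hf Y hY =>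
    h a b y B B' f ha hb hab hB hA hf Y (sub_cm g (wdg_open a b y) hY)

/-- every graded net gives one graded local algebra, whose transforms lie in the net -/
theorem trf_sub {N : Set V → VonNeumannAlgebra (Completion D)} (h : LNg Q G A Γ N) :
    ∀ Y ∈ Trf Q O (N O) S, Y ∈ N S := fun Y hY => by
  obtain ⟨s, L, y, X, m, hs, hL, a, b⟩ := mem_trf.1 hY
  obtain ⟨Y', m', e⟩ := h.cov s L y O X m hs hL
  have e' : Y' * W Q hs hL y = W Q hs hL y * X := ContinuousLinearMap.ext e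
  rw [canc h.toGr hs hL y (b.trans e'.symm)]
  exact h.mono _ _ a Y' m'

theorem lg1 {N : Set V → VonNeumannAlgebra (Completion D)} (h : LNg Q G A Γ N) (n : O ∈ nhds 0)
    (b : Bornology.IsBounded O) : Lg1 Q G A Γ O (N O) :=
  ⟨h.toGr, h.vac, h.add, h.der, h.ext, n, b, h.fld O, h.gam O, fun a c ha hc hac X hX Y hY =>
    have k := h.loc a c X ha hc hac (trf_sub h X hX)
    ⟨(VonNeumannAlgebra.mem_commutant_iff.1 k.1 Y (trf_sub h Y hY)).symm,
      (VonNeumannAlgebra.mem_commutant_iff.1 k.2 Y (trf_sub h Y hY)).symm⟩⟩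

end Vale.Agent.P352R.Lg
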