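import Vale.Agent.P352R.Lg.Net
import Vale.Agent.P352R.Lc.Wk
import Vale.Agent.P352R.Br3
import Vale.Agent.P352R.Cf.Pub
import Vale.Agent.P352R.Cv2

/-!
# P352R, block Lg: one graded local algebra generates a graded local net (helper85)
-/

set_option autoImplicit false
set_option linter.all false

namespace Vale.Agent.P352R.Lg

open P352 GF P352R.P P352R.G P352W.Net
open UniformSpace (Completion)

variable {D : Type*} [NormedAddCommGroup D] [InnerProductSpace ℂ D] {Q : Theory D} {G : D → D}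
  {A : (V → V) → D → D} {Γ : Completion D →L[ℂ] Completion D} {O : Set V}
  {M : VonNeumannAlgebra (Completion D)}

theorem cd (g : Gr Q G) (h : CntF Q ∨ FSL Q) (s : ℝ) (hs : 0 < s) : Cov Q s GF.one 0 :=
  h.elim (fun h => ⟨(sur g hs H496.isLor_one 0).denseRange, fun B hB =>
    have ⟨C, a, _, b⟩ := h.cov s _ B hs H496.isLor_one hB
    ⟨1, fun _ => 1, fun _ => C, fun _ => a, fun f v hf => by
      rw [b f v hf, Fin.sum_univ_one, one_smul]⟩⟩)
    fun h => Cw.cd_of (P352X.Fss.G.m1_gr (Br.gr.1 g)) h s hs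

/-- **one graded local algebra generates a graded local net** -/
theorem net (h : Lg1 Q G A Γ O M) (c : CntF Q ∨ FSL Q) :
    LNg Q G A Γ (hl fun S => vn (Trf Q O M S)) :=
  lng h fun S B f hS hB hf =>
    have ⟨B', hB', ad⟩ := Q.adj B hB
    ⟨B' (bar f), fun v w => ad f v w hf.1, fun Y hY v w =>
      Lc.wk (P352X.Fss.G.m1_gr (Br.gr.1 h.toGr)) (cd h.toGr c) h.nhd h.bdd h.fld hS
        (fun s y hs a X m X' e => ((mem_cmt (trf_star h.toGr)).1 (by rwa [vn_comm] at hY) X'
          ⟨s, _, y, X, m, hs, H496.isLor_one, a, e⟩).symm) hB hB' ad hf v w⟩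

end Vale.Agent.P352R.Lg
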