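import Vale.Agent.P352R.Pub3

namespace Vale.Agent.P352R.G

open P352.GF P
open UniformSpace (Completion)

variable {D : Type*} [NormedAddCommGroup D] [InnerProductSpace ℂ D]

/-- The transforms `U(g) X U(g)⁻¹` of the elements `X` of `M` by the similitudes `g` that map the
region `O` into the region `S`. -/
def Trf (Q : Theory D) (O : Set V) (M : VonNeumannAlgebra (Completion D)) (S : Set V) :
    Set (Completion D →L[ℂ] Completion D) :=
  {Y | ∃ s L y, ∃ X ∈ M, 0 < s ∧ IsLor L ∧ sim s L y '' O ⊆ S ∧
    ∀ z, Y (Ue Q s L y z) = Ue Q s L y (X z)}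

/-- **One graded local algebra.** The vacuum is even, `A X` is the generator of the similitudes with
velocity field `X`, and `Γ` is the grading on the Hilbert space. `O` is a bounded neighbourhood of
the origin, the fields smeared in `O` are affiliated to the graded von Neumann algebra `M`, and the
transforms of `M` into opposite wedges commute in the graded sense: the even part of `X` and the odd
part of `X` times `Γ` commute with `Y`. -/
structure Lg1 (Q : Theory D) (G : D → D) (A : (V → V) → D → D)
    (Γ : Completion D →L[ℂ] Completion D) (O : Set V) (M : VonNeumannAlgebra (Completion D)) : Prop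
    extends Gr Q G where
  vac : G Q.vac = Q.vac
  add : ∀ r r' (c : ℝ) X X' v, IsSim r X → IsSim r' X' →
    A (fun z => X z + c • X' z) v = A X v + (c : ℂ) • A X' v
  der : Gnr Q A
  ext : ∀ v : D, Γ v = (G v : D)
  nhd : O ∈ nhds 0
  bdd : Bornology.IsBounded O
  fld : ∀ B f, Q.fld B → In O f → Aff M (B f)
  gam : ∀ X ∈ M, Γ * X * Γ ∈ M
  loc : ∀ a b, IsNull a → IsNull b → mdot a b = 1 →
    ∀ X ∈ Trf Q O M (Wdg b a 0), ∀ Y ∈ Trf Q O M (Wdg a b 0),
      (X + Γ * X * Γ) * Y = Y * (X + Γ * X * Γ) ∧
        (X - Γ * X * Γ) * Γ * Y = Y * ((X - Γ * X * Γ) * Γ)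

variable {H : Type*} [NormedAddCommGroup H] [InnerProductSpace ℂ H] [CompleteSpace H]

/-- The fields of `Q`, whose domain is embedded in the Hilbert space `H` by `i`, smeared in a wedge
`W`, are affiliated to the von Neumann algebra generated by `N W`: they commute weakly with all
bounded operators that commute with the elements of `N W`. -/
def AfT (N : Set V → Set (H →L[ℂ] H)) (Q : Theory D) (i : D → H) : Prop :=
  ∀ a b y B B' f, IsNull a → IsNull b → mdot a b = 1 → Q.fld B → IsAdj B B' → In (Wdg a b y) f →
    ∀ Y : H →L[ℂ] H, (∀ X ∈ N (Wdg a b y), X * Y = Y * X) → ∀ v w,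
      inner ℂ (i (B' (bar f) w)) (Y (i v)) = inner ℂ (i w) (Y (i (B f v)))

end Vale.Agent.P352R.G
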